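import Vale.Agent.P157W88.Sph

/-! The rotation invariant probability measure on the unit sphere of a positive definite form. -/

namespace Vale.Agent.P207I71

open MeasureTheory Filter Topology Set Module
open scoped InnerProductSpace ENNReal

variable {n : ℕ}

/-- Euclidean space -/
abbrev V (n : ℕ) : Type := EuclideanSpace ℝ (Fin n)

theorem exists_lin (B : (V n) →L[ℝ] (V n) →L[ℝ] ℝ) (hs : ∀ v w, B v w = B w v)
    (hp : ∀ v, v ≠ 0 → 0 < B v v) : ∃ L : (V n) ≃L[ℝ] (V n), ∀ v w, B v w = ⟪L v, L w⟫_ℝ := by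
  let B' : LinearMap.BilinForm ℝ (V n) := LinearMap.mk₂ ℝ (fun v w => B v w)
    (by intros; simp) (by intros; simp) (by intros; simp) (by intros; simp)
  have hB' : LinearMap.IsSymm B' := ⟨fun v w => hs v w⟩
  obtain ⟨b0, hb0⟩ := LinearMap.BilinForm.exists_orthogonal_basis hB'
  have hn : finrank ℝ (V n) = n := by simp
  let b : Basis (Fin n) ℝ (V n) := b0.reindex (finCongr hn)
  have hb : ∀ i j, i ≠ j → B (b i) (b j) = 0 := fun i j h => by
    simp only [b, Basis.reindex_apply]
    exact hb0 ((finCongr hn).symm.injective.ne h)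
  have hq : ∀ i, 0 < √(B (b i) (b i)) := fun i => Real.sqrt_pos.2 (hp _ (b.ne_zero i))
  let c : Basis (Fin n) ℝ (V n) := b.unitsSMul fun i => (Units.mk0 _ (hq i).ne')⁻¹
  have hc : ∀ i j, B (c i) (c j) = if i = j then 1 else 0 := fun i j => by
    simp only [c, Basis.unitsSMul_apply, Units.smul_def, map_smul,
      smul_apply, smul_eq_mul, Units.val_inv_eq_inv_val, Units.val_mk0]
    split_ifs with h
    · subst h
      have := Real.mul_self_sqrt (hp _ (b.ne_zero i)).le
      have h2 := (hq i).ne'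
      field_simp
      nlinarith
    · rw [hb i j h]; simp
  let e := (EuclideanSpace.basisFun (Fin n) ℝ).toBasis
  refine ⟨(c.equiv e (Equiv.refl _)).toContinuousLinearEquiv, fun v w => ?_⟩
  let C' : LinearMap.BilinForm ℝ (V n) := LinearMap.mk₂ ℝ
    (fun v w => ⟪c.equiv e (Equiv.refl _) v, c.equiv e (Equiv.refl _) w⟫_ℝ)
    (by intros; simp [inner_add_left]) (by intros; simp [inner_smul_left])
    (by intros; simp [inner_add_right]) (by intros; simp [inner_smul_right])
  have : B' = C' := LinearMap.ext_basis c c fun i j => by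
    change B (c i) (c j) = ⟪c.equiv e (Equiv.refl _) (c i), c.equiv e (Equiv.refl _) (c j)⟫_ℝ
    rw [hc, Basis.equiv_apply, Basis.equiv_apply]
    exact ((orthonormal_iff_ite.1 (EuclideanSpace.basisFun (Fin n) ℝ).orthonormal) i j).symm
  exact congrArg (fun F : LinearMap.BilinForm ℝ (V n) => F v w) this

/-- A probability measure on the unit sphere of `B` which is invariant under the rotations. -/
def IsRot (B : (V n) →L[ℝ] (V n) →L[ℝ] ℝ) (σ : Measure (V n)) : Prop :=
  IsProbabilityMeasure σ ∧ (∀ᵐ v ∂σ, B v v = 1) ∧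
    ∀ T : (V n) ≃L[ℝ] (V n), (∀ v w, B (T v) (T w) = B v w) → σ.map T = σ

theorem IsRot.unique {B : (V n) →L[ℝ] (V n) →L[ℝ] ℝ} (hs : ∀ v w, B v w = B w v)
    (hp : ∀ v, v ≠ 0 → 0 < B v v) {σ τ : Measure (V n)} (h : IsRot B σ) (h' : IsRot B τ) :
    σ = τ := by
  obtain ⟨L, hL⟩ := exists_lin B hs hp
  have mL : Measurable L := L.continuous.measurable
  have key : ∀ {σ : Measure (V n)}, IsRot B σ → IsProbabilityMeasure (σ.map L) ∧
      (∀ T : (V n) ≃ₗᵢ[ℝ] (V n), (σ.map L).map T = σ.map L) ∧ ∀ᵐ x ∂σ.map L, ‖x‖ = 1 := by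
    intro σ ⟨h1, h2, h3⟩
    refine ⟨Measure.isProbabilityMeasure_map mL.aemeasurable, fun T => ?_, ?_⟩
    · let U : (V n) ≃L[ℝ] (V n) := (L.trans T.toContinuousLinearEquiv).trans L.symm
      have hU := h3 U fun v w => by simp [U, hL]
      conv_rhs => rw [← hU]
      rw [Measure.map_map T.continuous.measurable mL, Measure.map_map mL U.continuous.measurable]
      congr 1
      funext v
      simp [U]
    · rw [ae_map_iff mL.aemeasurable (isClosed_eq continuous_norm continuous_const).measurableSet]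
      filter_upwards [h2] with v hv
      rw [hL, real_inner_self_eq_norm_sq] at hv
      exact (sq_eq_sq₀ (norm_nonneg _) zero_le_one).1 (by simpa using hv)
  obtain ⟨a1, a2, a3⟩ := key h
  obtain ⟨b1, b2, b3⟩ := key h'
  have := P157W88.eq_of_invariant a2 b2 one_pos a3 b3
  exact L.toHomeomorph.measurableEmbedding.map_injective this

/-- The radial projection. -/
noncomputable def rad (B : (V n) →L[ℝ] (V n) →L[ℝ] ℝ) (v : (V n)) : (V n) := (√(B v v))⁻¹ • v

theorem meas_rad (B : (V n) →L[ℝ] (V n) →L[ℝ] ℝ) : Measurable (rad B) := by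
  have : Continuous fun v : (V n) => B v v := B.continuous₂.comp (continuous_id.prodMk continuous_id)
  exact (this.measurable.sqrt.inv).smul measurable_id

theorem rad_one {B : (V n) →L[ℝ] (V n) →L[ℝ] ℝ} {v : (V n)} (h : 0 < B v v) :
    B (rad B v) (rad B v) = 1 := by
  simp only [rad, map_smul, smul_apply, smul_eq_mul]
  rw [← mul_assoc, ← mul_inv, Real.mul_self_sqrt h.le, inv_mul_cancel₀ h.ne']

theorem ball_facts (B : (V n) →L[ℝ] (V n) →L[ℝ] ℝ) (hs : ∀ v w, B v w = B w v)
    (hp : ∀ v, v ≠ 0 → 0 < B v v) : IsOpen {v : (V n) | B v v < 1} ∧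
      volume {v : (V n) | B v v < 1} ≠ 0 ∧ volume {v : (V n) | B v v < 1} ≠ ∞ := by
  have hc : Continuous fun v : (V n) => B v v :=
    B.continuous₂.comp (continuous_id.prodMk continuous_id)
  have ho : IsOpen {v : (V n) | B v v < 1} := isOpen_lt hc continuous_const
  refine ⟨ho, (ho.measure_pos volume ⟨0, by simp⟩).ne', ?_⟩
  obtain ⟨L, hL⟩ := exists_lin B hs hp
  have : {v : (V n) | B v v < 1} ⊆ L.symm '' Metric.closedBall 0 1 := fun v hv => by
    refine ⟨L v, ?_, by simp⟩
    rw [mem_ofPred_eq, hL, real_inner_self_eq_norm_sq] at hv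
    rw [mem_closedBall_zero_iff]
    nlinarith [norm_nonneg (L v)]
  exact ((measure_mono this).trans_lt
    ((isCompact_closedBall _ _).image L.symm.continuous).measure_lt_top).ne

/-- The cone measure. -/
noncomputable def cone (B : (V n) →L[ℝ] (V n) →L[ℝ] ℝ) : Measure (V n) :=
  (ProbabilityTheory.cond volume {v : (V n) | B v v < 1}).map (rad B)

theorem isRot_cone (hn : 0 < n) (B : (V n) →L[ℝ] (V n) →L[ℝ] ℝ) (hs : ∀ v w, B v w = B w v)
    (hp : ∀ v, v ≠ 0 → 0 < B v v) : IsRot B (cone B) := by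
  obtain ⟨ho, h0, h1⟩ := ball_facts B hs hp
  have := ProbabilityTheory.cond_isProbabilityMeasure_of_finite h0 h1
  have : Nonempty (Fin n) := ⟨⟨0, hn⟩⟩
  have hc : Continuous fun v : (V n) => B v v :=
    B.continuous₂.comp (continuous_id.prodMk continuous_id)
  refine ⟨Measure.isProbabilityMeasure_map (meas_rad B).aemeasurable, ?_, fun T hT => ?_⟩
  · rw [cone, ae_map_iff (meas_rad B).aemeasurable (isClosed_eq hc continuous_const).measurableSet]
    refine ProbabilityTheory.cond_absolutelyContinuous.ae_le ?_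
    have : ∀ᵐ v : (V n), v ≠ 0 := by simp [ae_iff]
    filter_upwards [this] with v hv using rad_one (hp v hv)
  · have mT : Measurable T := T.continuous.measurable
    have hpre : T ⁻¹' {v : (V n) | B v v < 1} = {v : (V n) | B v v < 1} := by
      ext v; simp [hT]
    have hd : LinearMap.det (T : (V n) →ₗ[ℝ] (V n)) ≠ 0 := T.toLinearEquiv.isUnit_det'.ne_zero
    have hm := Measure.map_linearMap_addHaar_eq_smul_addHaar (volume : Measure (V n)) hd
    have hv : (volume : Measure (V n)).map T = volume := by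
      have h2 := congrArg (fun m : Measure (V n) => m {v : (V n) | B v v < 1}) hm
      simp only [Measure.smul_apply, smul_eq_mul] at h2
      erw [Measure.map_apply mT ho.measurableSet, hpre] at h2
      have h3 : ENNReal.ofReal |(LinearMap.det (T : (V n) →ₗ[ℝ] (V n)))⁻¹| = 1 :=
        (ENNReal.mul_left_inj h0 h1).1 (by rw [← h2, one_mul])
      rw [h3, one_smul] at hm
      exact hm
    have hcm : (ProbabilityTheory.cond volume {v : (V n) | B v v < 1}).map T =
        ProbabilityTheory.cond volume {v : (V n) | B v v < 1} := by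
      rw [ProbabilityTheory.cond, Measure.map_smul]
      congr 1
      conv_rhs => rw [← hv]
      rw [Measure.restrict_map mT ho.measurableSet, hpre]
    rw [cone]
    conv_rhs => rw [← hcm]
    rw [Measure.map_map mT (meas_rad B), Measure.map_map (meas_rad B) mT]
    congr 1
    funext v
    simp [rad, hT]

theorem integral_cone (B : (V n) →L[ℝ] (V n) →L[ℝ] ℝ) {a : (V n) → ℝ}
    (ha : AEStronglyMeasurable a (cone B)) : ∫ v, a v ∂cone B =
      (∫ v in {v : (V n) | B v v < 1}, a (rad B v)) / volume.real {v : (V n) | B v v < 1} := by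
  rw [cone] at ha ⊢
  rw [integral_map (meas_rad B).aemeasurable ha, ProbabilityTheory.cond, integral_smul_measure,
    ENNReal.toReal_inv, smul_eq_mul, div_eq_inv_mul]
  rfl

theorem exu_rot (hn : 0 < n) (B : (V n) →L[ℝ] (V n) →L[ℝ] ℝ) (hs : ∀ v w, B v w = B w v)
    (hp : ∀ v, v ≠ 0 → 0 < B v v) : ∃! σ, IsRot B σ :=
  ⟨cone B, isRot_cone hn B hs hp, fun _ h => h.unique hs hp (isRot_cone hn B hs hp)⟩

/-- The same notion on the sphere as a type. -/
def IsRotS (B : (V n) →L[ℝ] (V n) →L[ℝ] ℝ) (σ : Measure {v : (V n) // B v v = 1}) : Prop :=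
  IsProbabilityMeasure σ ∧ ∀ (T : (V n) ≃L[ℝ] (V n)) (h : ∀ v w, B (T v) (T w) = B v w),
    σ.map (fun v => (⟨T v.1, (h _ _).trans v.2⟩ : {v : (V n) // B v v = 1})) = σ

theorem emb (B : (V n) →L[ℝ] (V n) →L[ℝ] ℝ) :
    MeasurableEmbedding (Subtype.val : {v : (V n) // B v v = 1} → (V n)) :=
  MeasurableEmbedding.subtype_coe (s := {v : (V n) | B v v = 1}) (isClosed_eq
    (B.continuous₂.comp (continuous_id.prodMk continuous_id)) continuous_const).measurableSet

theorem meas_rot {B : (V n) →L[ℝ] (V n) →L[ℝ] ℝ} (T : (V n) ≃L[ℝ] (V n)) (h : ∀ v w, B (T v) (T w) = B v w) :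
    Measurable fun v : {v : (V n) // B v v = 1} =>
      (⟨T v.1, (h _ _).trans v.2⟩ : {v : (V n) // B v v = 1}) :=
  (T.continuous.measurable.comp measurable_subtype_coe).subtype_mk

theorem isRotS_iff {B : (V n) →L[ℝ] (V n) →L[ℝ] ℝ} {σ : Measure {v : (V n) // B v v = 1}} :
    IsRotS B σ ↔ IsRot B (σ.map Subtype.val) := by
  have e : ∀ (T : (V n) ≃L[ℝ] (V n)) (h : ∀ v w, B (T v) (T w) = B v w),
      (σ.map Subtype.val).map T = (σ.map fun v =>
        (⟨T v.1, (h _ _).trans v.2⟩ : {v : (V n) // B v v = 1})).map Subtype.val := fun T h => by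
    rw [Measure.map_map T.continuous.measurable (emb B).measurable,
      Measure.map_map (emb B).measurable (meas_rot T h)]
    rfl
  constructor
  · rintro ⟨h1, h2⟩
    refine ⟨Measure.isProbabilityMeasure_map (emb B).measurable.aemeasurable, ?_, fun T h => ?_⟩
    · rw [(emb B).ae_map_iff]
      exact ae_of_all _ fun v => v.2
    · rw [e T h, h2 T h]
  · rintro ⟨h1, -, h3⟩
    refine ⟨⟨?_⟩, fun T h => (emb B).map_injective ?_⟩
    · have := h1.measure_univ
      rwa [(emb B).map_apply, preimage_univ] at this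
    · rw [← e T h, h3 T h]

theorem map_comap_cone (hn : 0 < n) (B : (V n) →L[ℝ] (V n) →L[ℝ] ℝ) (hs : ∀ v w, B v w = B w v)
    (hp : ∀ v, v ≠ 0 → 0 < B v v) :
    ((cone B).comap (Subtype.val : {v : (V n) // B v v = 1} → (V n))).map Subtype.val = cone B := by
  rw [(emb B).map_comap, Measure.restrict_eq_self_of_ae_mem]
  filter_upwards [(isRot_cone hn B hs hp).2.1] with v hv using ⟨⟨v, hv⟩, rfl⟩

theorem exu_rotS (hn : 0 < n) (B : (V n) →L[ℝ] (V n) →L[ℝ] ℝ) (hs : ∀ v w, B v w = B w v)
    (hp : ∀ v, v ≠ 0 → 0 < B v v) : ∃! σ, IsRotS B σ := by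
  refine ⟨(cone B).comap Subtype.val, isRotS_iff.2 ?_, fun σ h => (emb B).map_injective ?_⟩
  · rw [map_comap_cone hn B hs hp]
    exact isRot_cone hn B hs hp
  · rw [map_comap_cone hn B hs hp]
    exact (isRotS_iff.1 h).unique hs hp (isRot_cone hn B hs hp)

/-- The integral for the invariant measure is the average over the ball; `A` is any function
which agrees with `a (v / |v|)` off the origin. -/
theorem IsRotS.integral (hn : 0 < n) {B : (V n) →L[ℝ] (V n) →L[ℝ] ℝ} (hs : ∀ v w, B v w = B w v)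
    (hp : ∀ v, v ≠ 0 → 0 < B v v) {σ : Measure {v : (V n) // B v v = 1}} (h : IsRotS B σ)
    {a : {v : (V n) // B v v = 1} → ℝ} (ha : Measurable a) {A : (V n) → ℝ}
    (hA : ∀ (v : (V n)) (hv : v ≠ 0), A v = a ⟨rad B v, rad_one (hp v hv)⟩) :
    ∫ v, a v ∂σ = (∫ v in {v : (V n) | B v v < 1}, A v) / volume.real {v : (V n) | B v v < 1} := by
  have : Nonempty (Fin n) := ⟨⟨0, hn⟩⟩
  obtain ⟨a', m', e'⟩ := (emb B).exists_measurable_extend ha fun _ => ⟨0⟩
  have h1 := (isRotS_iff.1 h).unique hs hp (isRot_cone hn B hs hp)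
  have h2 := integral_cone B (a := a') m'.aestronglyMeasurable
  rw [← h1, (emb B).integral_map] at h2
  have h3 : ∀ v, a' v.1 = a v := fun v => congrFun e' v
  simp only [h3] at h2
  rw [h2]
  congr 1
  refine integral_congr_ae (ae_restrict_of_ae ?_)
  have : ∀ᵐ v : (V n), v ≠ 0 := by simp [ae_iff]
  filter_upwards [this] with v hv
  rw [hA v hv, ← h3]

end Vale.Agent.P207I71
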